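/-!
# Row 123 (S0163) blueprint: a C^1 map with zero entropy and eigenvalue 2 on H_2

Notation: ST = Real.smoothTransition (0 on x <= 0, 1 on x >= 1, values in [0,1], smooth).
Points of S2 are (zeta, h) in C x R, points of S6 are (eta, k) in V3 x R, M = Circle x (S2 x S6).

## global  (from CoreSpec alpha Psi r1)
For p = (tau, x, y): t = arg tau / (2 pi), rho(h) = 1 / (h + 2 * ST(1 - 2h))  (= 1/h for h >= 1/2,
positive and smooth on h >= -1),  w = (rho(h) zeta, rho(k) eta),  chi = ST(4h-2) * ST(4k-2),
U = chi * (Psi(t,w)).1 + (1-chi) * 32 * zeta^2,  W = chi * (Psi(t,w)).2,  H = 1 - 34 * ST(6 - 8h),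
F p = (exp(2 pi i alpha) * tau, normalize (U, H), normalize (W, 1)).
* C^1: near tau0 one has Psi(arg tau/(2 pi), .) = Psi(arg tau0/(2 pi) + Im log(tau/tau0)/(2 pi), .)
  by periodicity; then use contMDiff_coe_sphere, ContMDiff.codRestrict_sphere, ContDiffAt.
* (U,H) != 0: if h >= 3/4 then H = 1.  If h < 3/4 (or k < 3/4, or chi = 0) then either chi = 0 or
  |w| >= r1, so U = c' zeta^2 with c' > 0 and W = 0; zeta = 0 and h < 3/4 give h = -1, H = -33.
* N = {h > 0, k > 0, |(zeta/h, eta/k)| <= 1/2}: there h,k >= 3/4, chi = 1, H = 1, and the
  gnomonic coordinates of F p are exactly Psi(t, w).  A = {y = north, h <= h1}, h1 = 1/sqrt(1+r1^2).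
  F maps N into N u A, the complement of N into N u A, A into A; on A the height strictly drops
  unless h = -1 (h >= 5/8: |U| >= 8|zeta|/h and H <= 1;  h < 5/8: H = -33), so by compactness an
  orbit spends a bounded time in A n {h >= -1 + eps}.  In N use the last clause of CoreSpec
  (arg of the rotated point = t0 + j alpha modulo integers).  p0 = (north, north), p1 = (south, north).
* homotopy: i x = (1, x, north);
  (exp(2 pi i alpha (1-s)), normalize((1-s)(U,H) + s (sq1 zeta, h)), normalize((1-s) W, 1)).

## entropy_zero
Fix eps, finite eps-nets of B and X.  Code of an orbit segment of length n: net point near z.1, the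
switching time min m n, and a list of at most N pairs (exceptional time < n, net point near the
fibre component).  At most C (n+1)^(N+1) codes; equal codes give (2 eps, n)-close orbits; choose
one point per code; expGrowthSup of a polynomial is 0.

## hasEigenvalue_two
q(phi, theta) = (sin phi * exp(i theta), cos phi) : R^2 -> S2, dbl (q(phi,theta)) = q(phi, 2 theta)
for 0 <= phi <= pi.  Singular simplices [v0,..,vn] = q o (affine simplex with vertices v_j in R^2).
Cycle sigma = two triangles of [0,pi] x [0,2 pi] corrected by the constant 2-simplices at the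
poles; dbl_* sigma - 2 sigma is an explicit boundary (affine 3-simplices, translation by 2 pi in
theta does not change a simplex, simplices inside phi = 0 or phi = pi are constant maps).
Non-triviality: P(zeta,h) = 1/2 [[1+h, conj zeta],[zeta, 1-h]] is a rank one projection.  Over any
continuous map from a standard simplex to S2 there is a continuous nowhere zero section
(product of the projections along the segment from a vertex, uniform continuity); two sections
differ by a continuous function to C \ {0}, which has a continuous logarithm on a simplex.
Choose a section s_e for every singular 1-simplex e; for a 2-simplex tau with section s put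
phi(tau) = sum_j (-1)^j Im W(s_(d_j tau) / s o delta_j), W(lambda) = log-variation along the edge.
It does not depend on s, kills boundaries of 3-simplices (simplicial identities), and on sigma the
global section (cos(phi/2), sin(phi/2) exp(i theta)) gives +- 2 pi.  Finally f_* i_* = i_* dbl_*
(TopCat.Homotopy.congr_homologyMap_singularChainComplexFunctor) and pi_* i_* = id.

## transport
I.toHomeomorph followed by a linear equivalence E ~ EuclideanSpace R (Fin n); compose all charts.

## core (four registers z : Fin 4 -> C, generation g lives in register g mod 4)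
phi(t) = 1 - cos(2 pi t); J_g = {phi <= l_g}, J_g^+ = {phi < l_g + z_g}; generations 0..3 trivial
(l_g = 3).  b_g = ST((phi - l_g)/z_g), a_g = sum_(i <= g) L 2^-i b_i, a = lim a_g.
F_k(t,z)_(g mod 4) = a_g(t) z_(g mod 4) + (1 - b_g(t)) Y_k(t,z) for g in {k,..,k+3},
Y_k = L 2^-k sum_n 3^-n (q1_n(t) w_n(z_(k+1)) + q2_n(t) w_n(z_(k+2))), w_n = n-fold (smoothed) sq1,
q >= 0, sum q = 1, q_(g,n)(t) > 0 only if t - n alpha in J_g and t - j alpha notin J_g^+ (0<j<n).
Phi(t,z) interpolates F_k, F_(k+1) on r_(k+1) <= |z| <= 2 r_(k+1), r_k -> 0 very fast.
After a visit to J_(k+4) all registers hold the same Y and later writes are c * sq1^[m] Y, c >= 2^m.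
-/
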